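import Vale.Agent.P068.Repeated.Peel

/-!
Packing of the robust part by pieces no larger than the index set.
-/

namespace Vale.Agent.P068.Repeated

open Set Cardinal

variable {α Θ : Type} {M : Θ → Matroid α}

/-- Each circuit larger than the index set has, in every restriction containing it, an element
which a set no larger than the index set separates from the rest of the restriction. -/
def SmallCuts (N : Matroid α) (Θ : Type) : Prop :=
  ∀ C, N.IsCircuit C → #Θ < #C → ∀ X, C ⊆ X → X ⊆ N.E →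
    ∃ e ∈ C, ∃ D ⊆ X, #D ≤ #Θ ∧ e ∉ N.closure (X \ D)

/-- A circuit inside the robust part is no larger than the index set. -/
theorem Robust.mk_circuit_le {E P C : Set α} (hP : Robust M P) (hE : ∀ i, (M i).E = E)
    (hPE : P ⊆ E) (hcut : ∀ i, SmallCuts (M i) Θ) {i : Θ} (hC : (M i).IsCircuit C) (hCP : C ⊆ P) :
    #C ≤ #Θ := by
  by_contra h
  obtain ⟨e, heC, D, -, hD, hcl⟩ := hcut i C hC (not_le.1 h) P hCP ((hE i).symm ▸ hPE)
  exact hcl (hP i D hD (hCP heC))

/-- The dual of a finitary matroid has small cuts. -/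
theorem smallCuts_of_dual_finitary [Infinite Θ] (N : Matroid α) [N✶.Finitary] :
    SmallCuts N Θ := by
  intro C hC hbig X hCX hXE
  have hone : ℵ₀ ≤ #Θ := aleph0_le_mk Θ
  have hnt : C.Nontrivial := by
    rw [← not_subsingleton_iff]
    intro hs
    exact hbig.not_ge ((mk_le_one_iff_set_subsingleton.2 hs).trans (one_le_aleph0.trans hone))
  obtain ⟨e, he⟩ := hC.nonempty
  obtain ⟨K, hK, heK⟩ := (hC.isNonloop_of_mem hnt he).exists_mem_isCocircuit
  have hKfin : K.Finite := hK.isCircuit.finite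
  refine ⟨e, he, K ∩ X, inter_subset_right, ?_, fun h => ?_⟩
  · exact (hKfin.inter_of_left X).countable.le_aleph0.trans hone
  have hnot : e ∉ X \ (K ∩ X) := fun h' => h'.2 ⟨heK, h'.1⟩
  obtain ⟨C', hC'sub, hC', heC'⟩ := Matroid.exists_isCircuit_of_mem_closure h hnot
  refine hC'.inter_isCocircuit_ne_singleton hK (e := e) ?_
  refine subset_antisymm (fun x hx => ?_) (singleton_subset_iff.2 ⟨heC', heK⟩)
  rcases hC'sub hx.1 with h' | h'
  · exact h'
  · exact absurd ⟨hx.2, h'.1⟩ h'.2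

theorem mk_iUnion_le_of [Infinite Θ] {ι : Type} (hι : #ι ≤ #Θ) (w : ι → Set α)
    (hw : ∀ k, #(w k) ≤ #Θ) : #(⋃ k, w k : Set α) ≤ #Θ :=
  (mk_iUnion_le w).trans <| (mul_le_mul' hι (ciSup_le' hw)).trans_eq
    (mul_eq_self (aleph0_le_mk Θ))

theorem mk_union_le_of [Infinite Θ] {A B : Set α} (hA : #A ≤ #Θ) (hB : #B ≤ #Θ) :
    #(A ∪ B : Set α) ≤ #Θ :=
  (mk_union_le A B).trans <| (add_le_add hA hB).trans_eq (add_eq_self (aleph0_le_mk Θ))

/-- A circuit of a sum of two matroids is a circuit of one of them. -/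
theorem isCircuit_disjointSum {A B : Matroid α} {h : Disjoint A.E B.E} {C : Set α}
    (hC : (A.disjointSum B h).IsCircuit C) : A.IsCircuit C ∨ B.IsCircuit C := by
  have hCE : C ⊆ A.E ∪ B.E := by simpa using hC.subset_ground
  have hd : ¬ A.Indep (C ∩ A.E) ∨ ¬ B.Indep (C ∩ B.E) := by
    by_contra hcon
    push Not at hcon
    exact hC.not_indep (Matroid.disjointSum_indep_iff.2 ⟨hcon.1, hcon.2, hCE⟩)
  rcases hd with hd | hd
  · left
    obtain ⟨C', hC'sub, hC'⟩ :=
      ((Matroid.not_indep_iff inter_subset_right).1 hd).exists_isCircuit_subset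
    have hdep : ¬ (A.disjointSum B h).Indep C' := fun hI => by
      have := (Matroid.disjointSum_indep_iff.1 hI).1
      rw [inter_eq_left.2 hC'.subset_ground] at this
      exact hC'.not_indep this
    rwa [hC.eq_of_not_indep_subset hdep (hC'sub.trans inter_subset_left)] at hC'
  · right
    obtain ⟨C', hC'sub, hC'⟩ :=
      ((Matroid.not_indep_iff inter_subset_right).1 hd).exists_isCircuit_subset
    have hdep : ¬ (A.disjointSum B h).Indep C' := fun hI => by
      have := (Matroid.disjointSum_indep_iff.1 hI).2.1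
      rw [inter_eq_left.2 hC'.subset_ground] at this
      exact hC'.not_indep this
    rwa [hC.eq_of_not_indep_subset hdep (hC'sub.trans inter_subset_left)] at hC'

/-- The sum of a finitary matroid and the dual of a finitary matroid has small cuts. -/
theorem smallCuts_disjointSum [Infinite Θ] (A B : Matroid α) (h : Disjoint A.E B.E)
    [A.Finitary] [B✶.Finitary] : SmallCuts (A.disjointSum B h) Θ := by
  intro C hC hbig X hCX hXE
  have hCB : B.IsCircuit C := (isCircuit_disjointSum hC).resolve_left fun hA =>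
    hbig.not_ge (hA.finite.countable.le_aleph0.trans (aleph0_le_mk Θ))
  obtain ⟨e, heC, D, hDX, hD, hcl⟩ := smallCuts_of_dual_finitary (Θ := Θ) B C hCB hbig (X ∩ B.E)
    (subset_inter hCX hCB.subset_ground) inter_subset_right
  refine ⟨e, heC, D, hDX.trans inter_subset_left, hD, fun hcl' => hcl ?_⟩
  have heB := hCB.subset_ground heC
  by_cases hne : e ∈ X \ D
  · exact B.subset_closure _ (sdiff_subset.trans inter_subset_right) ⟨⟨hne.1, heB⟩, hne.2⟩
  obtain ⟨C', hC'sub, hC', heC'⟩ := Matroid.exists_isCircuit_of_mem_closure hcl' hne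
  rcases isCircuit_disjointSum hC' with hA | hB
  · exact absurd heB (disjoint_left.1 h (hA.subset_ground heC'))
  refine B.closure_subset_closure (fun x hx => ?_) (hB.mem_closure_sdiff_singleton_of_mem heC')
  rcases hC'sub hx.1 with h' | h'
  · exact absurd h' hx.2
  · exact ⟨⟨h'.1, hB.subset_ground hx.1⟩, h'.2⟩

/-- A small witness avoiding a small set. -/
theorem exists_witness {E P X V : Set α} (hE : ∀ i, (M i).E = E) (hPE : P ⊆ E)
    (hP : Robust M P) (hcut : ∀ i, SmallCuts (M i) Θ) {i : Θ} {y : α}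
    (hyP : y ∈ P) (hyV : y ∈ V) (hXP : X ⊆ P) (hV : #V ≤ #Θ) :
    ∃ w : Set α, w ⊆ P \ (X ∪ V) ∧ #w ≤ #Θ ∧ y ∈ (M i).closure (X ∪ w) := by
  have hy : y ∈ (M i).closure (X ∪ (P \ (X ∪ V))) := by
    refine (M i).closure_subset_closure ?_ (hP i V hV hyP)
    intro x hx
    by_cases h : x ∈ X
    · exact Or.inl h
    · exact Or.inr ⟨hx.1, fun h' => h'.elim h hx.2⟩
  by_cases hyX : y ∈ X
  · exact ⟨∅, empty_subset _, by simp,
      (M i).subset_closure _ (by rw [hE, union_empty]; exact hXP.trans hPE) (Or.inl hyX)⟩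
  have hyT : y ∉ X ∪ (P \ (X ∪ V)) := fun h => h.elim hyX fun h' => h'.2 (Or.inr hyV)
  obtain ⟨C, hCT, hC, hyC⟩ := Matroid.exists_isCircuit_of_mem_closure hy hyT
  refine ⟨(C \ {y}) \ X, fun x hx => ?_, ?_, ?_⟩
  · rcases hCT hx.1.1 with h | h | h
    · exact absurd h hx.1.2
    · exact absurd h hx.2
    · exact h
  · refine (mk_le_mk_of_subset (sdiff_subset.trans sdiff_subset)).trans
      (hP.mk_circuit_le hE hPE hcut hC fun x hx => ?_)
    rcases hCT hx with rfl | h | h
    · exact hyP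
    · exact hXP h
    · exact h.1
  · refine (M i).closure_subset_closure ?_ (hC.mem_closure_sdiff_singleton_of_mem hyC)
    intro x hx
    by_cases h : x ∈ X
    · exact Or.inl h
    · exact Or.inr ⟨hx, h⟩

/-- All tasks on a small set are met by disjoint small witnesses. -/
theorem exists_stage [Infinite Θ] {E P X Q : Set α} (hE : ∀ i, (M i).E = E) (hPE : P ⊆ E)
    (hP : Robust M P) (hcut : ∀ i, SmallCuts (M i) Θ)
    (hXP : X ⊆ P) (hQP : Q ⊆ P) (hQ : #Q ≤ #Θ) :
    ∃ W : Θ → Set α, (∀ i, W i ⊆ P \ (X ∪ Q)) ∧ (∀ i, #(W i) ≤ #Θ) ∧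
      (∀ i j, i ≠ j → Disjoint (W i) (W j)) ∧
      ∀ i, ∀ y ∈ Q, y ∈ (M i).closure (X ∪ W i) := by
  classical
  obtain ⟨r, hr⟩ : ∃ r : (Θ × Q) → (Θ × Q) → Prop, IsWellOrder _ r :=
    ⟨WellOrderingRel, inferInstance⟩
  have hT : #(Θ × Q) ≤ #Θ := by
    rw [mk_prod, lift_id, lift_id]
    exact (mul_le_mul' le_rfl hQ).trans_eq (mul_eq_self (aleph0_le_mk Θ))
  let pick : Θ × Q → Set α → Set α := fun t V =>
    if h : ∃ w : Set α, w ⊆ P \ (X ∪ V) ∧ #w ≤ #Θ ∧ t.2.1 ∈ (M t.1).closure (X ∪ w)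
    then h.choose else ∅
  let w : Θ × Q → Set α := hr.wf.fix (fun t ih => pick t (Q ∪ ⋃ s : {s // r s t}, ih s.1 s.2))
  have hw : ∀ t, w t = pick t (Q ∪ ⋃ s : {s // r s t}, w s.1) :=
    fun t => hr.wf.fix_eq _ t
  have hwsmall : ∀ t, #(w t) ≤ #Θ := fun t => by
    rw [hw]
    simp only [pick]
    split_ifs with h
    · exact h.choose_spec.2.1
    · simp
  have key : ∀ t, w t ⊆ P \ (X ∪ (Q ∪ ⋃ s : {s // r s t}, w s.1)) ∧
      t.2.1 ∈ (M t.1).closure (X ∪ w t) := by
    intro t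
    have h := exists_witness (i := t.1) hE hPE hP hcut (hQP t.2.2)
      (V := Q ∪ ⋃ s : {s // r s t}, w s.1) (Or.inl t.2.2) hXP
      (mk_union_le_of hQ (mk_iUnion_le_of ((mk_subtype_le _).trans hT) _ fun s => hwsmall _))
    rw [hw t]
    simp only [pick, dif_pos h]
    exact ⟨h.choose_spec.1, h.choose_spec.2.2⟩
  have hdis : ∀ s t, s ≠ t → Disjoint (w s) (w t) := by
    intro s t hst
    rcases trichotomous_of r s t with h | h | h
    · exact disjoint_left.2 fun x hs ht =>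
        ((key t).1 ht).2 (Or.inr (Or.inr (mem_iUnion.2 ⟨⟨s, h⟩, hs⟩)))
    · exact absurd h hst
    · exact disjoint_left.2 fun x hs ht =>
        ((key s).1 hs).2 (Or.inr (Or.inr (mem_iUnion.2 ⟨⟨t, h⟩, ht⟩)))
  refine ⟨fun i => ⋃ y : Q, w (i, y), fun i => iUnion_subset fun y x hx => ?_,
    fun i => mk_iUnion_le_of hQ _ fun _ => hwsmall _, fun i j hij => ?_, fun i y hy => ?_⟩
  · exact ⟨((key _).1 hx).1, fun h => ((key _).1 hx).2 (h.imp id Or.inl)⟩
  · simp only [disjoint_iUnion_left, disjoint_iUnion_right]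
    exact fun _ _ => hdis _ _ fun h => hij ((Prod.ext_iff.1 h).1)
  · exact (M i).closure_subset_closure
      (union_subset_union_right X (subset_iUnion (fun y : Q => w (i, y)) ⟨y, hy⟩))
      (key (i, ⟨y, hy⟩)).2

/-- The robust part has pairwise disjoint spanning sets, one for each index. -/
theorem exists_packing [Infinite Θ] {E P : Set α} (hE : ∀ i, (M i).E = E) (hPE : P ⊆ E)
    (hP : Robust M P) (hcut : ∀ i, SmallCuts (M i) Θ) :
    ∃ S : Θ → Set α, (∀ i, S i ⊆ P) ∧ (∀ i j, i ≠ j → Disjoint (S i) (S j)) ∧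
      ∀ i, P ⊆ (M i).closure (S i) := by
  classical
  let Good : Set (Set (Option Θ × α)) := {T |
    (∀ x, (none, x) ∈ T → x ∈ P) ∧
    (∀ i x, (some i, x) ∈ T → (none, x) ∈ T) ∧
    (∀ i j x, (some i, x) ∈ T → (some j, x) ∈ T → i = j) ∧
    ∀ i x, (none, x) ∈ T → x ∈ (M i).closure {y | (some i, y) ∈ T}}
  obtain ⟨T, hT⟩ : ∃ T, Maximal (· ∈ Good) T := by
    refine zorn_subset Good fun c hc hchain => ⟨⋃₀ c, ⟨?_, ?_, ?_, ?_⟩,
      fun s hs => subset_sUnion_of_mem hs⟩
    · rintro x ⟨s, hs, hx⟩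
      exact (hc hs).1 x hx
    · rintro i x ⟨s, hs, hx⟩
      exact ⟨s, hs, (hc hs).2.1 i x hx⟩
    · rintro i j x ⟨s, hs, hx⟩ ⟨t, ht, hy⟩
      rcases hchain.total hs ht with h | h
      · exact (hc ht).2.2.1 i j x (h hx) hy
      · exact (hc hs).2.2.1 i j x hx (h hy)
    · rintro i x ⟨s, hs, hx⟩
      refine (M i).closure_subset_closure ?_ ((hc hs).2.2.2 i x hx)
      exact fun y hy => ⟨s, hs, hy⟩
  obtain ⟨hXP, hSX, hdis, hspan⟩ := hT.prop
  let X : Set α := {x | (none, x) ∈ T}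
  let S : Θ → Set α := fun i => {y | (some i, y) ∈ T}
  refine ⟨S, fun i x hx => hXP x (hSX i x hx), fun i j hij => ?_, ?_⟩
  · exact disjoint_left.2 fun x hi hj => hij (hdis i j x hi hj)
  suffices hall : P ⊆ X from fun i x hx => hspan i x (hall hx)
  intro e he
  by_contra heX
  choose W hW using fun Q : {Q : Set α // Q ⊆ P ∧ #Q ≤ #Θ} =>
    exists_stage (X := X) hE hPE hP hcut hXP Q.2.1 Q.2.2
  let next : {Q : Set α // Q ⊆ P ∧ #Q ≤ #Θ} → {Q : Set α // Q ⊆ P ∧ #Q ≤ #Θ} := fun Q =>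
    ⟨Q.1 ∪ ⋃ i, W Q i, union_subset Q.2.1 (iUnion_subset fun i => ((hW Q).1 i).trans sdiff_subset),
      mk_union_le_of Q.2.2 (mk_iUnion_le_of le_rfl _ (hW Q).2.1)⟩
  let Q : ℕ → {Q : Set α // Q ⊆ P ∧ #Q ≤ #Θ} := fun n => next^[n]
    ⟨{e}, singleton_subset_iff.2 he, by simpa using one_le_aleph0.trans (aleph0_le_mk Θ)⟩
  have hsucc : ∀ n, Q (n + 1) = next (Q n) := fun n => Function.iterate_succ_apply' _ _ _
  have hmono : ∀ m n, m ≤ n → (Q m).1 ⊆ (Q n).1 := fun m n hmn => by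
    induction n, hmn using Nat.le_induction with
    | base => rfl
    | succ k _ ih => rw [hsucc]; exact ih.trans subset_union_left
  have hWQ : ∀ n i, W (Q n) i ⊆ (Q (n + 1)).1 := fun n i => by
    rw [hsucc]
    exact (subset_iUnion (W (Q n)) i).trans subset_union_right
  let T' : Set (Option Θ × α) := T ∪ {p | (p.1 = none ∧ ∃ n, p.2 ∈ (Q n).1) ∨
    ∃ i n, p.1 = some i ∧ p.2 ∈ W (Q n) i}
  have hnewX : ∀ i n, ∀ x ∈ W (Q n) i, x ∉ X := fun i n x hx h => ((hW _).1 i hx).2 (Or.inl h)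
  have hgood : T' ∈ Good := by
    refine ⟨?_, ?_, ?_, ?_⟩
    · rintro x (h | ⟨-, n, hn⟩ | ⟨i, n, h, -⟩)
      · exact hXP x h
      · exact (Q n).2.1 hn
      · simp at h
    · rintro i x (h | ⟨h, -⟩ | ⟨j, n, h, hn⟩)
      · exact Or.inl (hSX i x h)
      · simp at h
      · exact Or.inr (Or.inl ⟨rfl, n + 1, hWQ n j hn⟩)
    · rintro i j x (hi | ⟨hi, -⟩ | ⟨i', n, hi, hxn⟩) (hj | ⟨hj, -⟩ | ⟨j', m, hj, hxm⟩)
      case inr.inr.inr.inr =>
        obtain rfl : i = i' := Option.some_inj.1 hi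
        obtain rfl : j = j' := Option.some_inj.1 hj
        rcases lt_trichotomy n m with h | h | h
        · exact absurd (hmono _ _ h (hWQ n i hxn)) fun h' => ((hW _).1 j hxm).2 (Or.inr h')
        · subst h
          by_contra hne
          exact disjoint_left.1 ((hW (Q n)).2.2.1 i j hne) hxn hxm
        · exact absurd (hmono _ _ h (hWQ m j hxm)) fun h' => ((hW _).1 i hxn).2 (Or.inr h')
      case inl.inl => exact hdis i j x hi hj
      case inl.inr.inr => exact absurd (hSX i x hi) (hnewX _ _ x hxm)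
      case inr.inr.inl => exact absurd (hSX j x hj) (hnewX _ _ x hxn)
      all_goals first | (simp at hi; done) | (simp at hj; done)
    · intro i x hx
      have hsub : {y | (some i, y) ∈ T'} ⊆ (M i).E := fun y hy => by
        rw [hE]
        rcases hy with h | ⟨h, -⟩ | ⟨j, n, -, hn⟩
        · exact hPE (hXP y (hSX i y h))
        · simp at h
        · exact hPE ((hW _).1 j hn).1
      have hXcl : X ⊆ (M i).closure {y | (some i, y) ∈ T'} := fun z hz =>
        (M i).closure_subset_closure (fun y hy => Or.inl hy) (hspan i z hz)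
      rcases hx with h | ⟨-, n, hn⟩ | ⟨j, n, h, -⟩
      · exact hXcl h
      · refine (M i).closure_subset_closure_of_subset_closure ?_ ((hW (Q n)).2.2.2 i x hn)
        refine union_subset hXcl fun y hy => ?_
        exact (M i).subset_closure _ hsub (Or.inr (Or.inr ⟨i, n, rfl, hy⟩))
      · simp at h
  exact heX (hT.le_of_ge hgood subset_union_left (Or.inr (Or.inl ⟨rfl, 0, rfl⟩)))

end Vale.Agent.P068.Repeated
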