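import Mathlib

/-!
Covering outside the robust part, for families of matroids with many repetitions.
-/

namespace Vale.Agent.P068.Repeated

open Set Cardinal

variable {α Θ : Type} (M : Θ → Matroid α)

/-- Removing a small set from a robust set keeps it spanned in every member. -/
def Robust (Q : Set α) : Prop :=
  ∀ i, ∀ U : Set α, #U ≤ #Θ → Q ⊆ (M i).closure (Q \ U)

/-- A peeling step: a nonempty set outside the kernel, injectively coloured. -/
def Step (P R : Set α) (D : Set α) (f : α → Θ) : Prop :=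
  D ⊆ R ∧ D.Nonempty ∧ Disjoint D P ∧ InjOn f D ∧ ∀ d ∈ D, d ∉ (M (f d)).closure (R \ D)

variable {M}

theorem Robust.sUnion {F : Set (Set α)} (h : ∀ Q ∈ F, Robust M Q) : Robust M (⋃₀ F) := by
  intro i U hU x hx
  obtain ⟨Q, hQ, hxQ⟩ := hx
  exact (M i).closure_subset_closure (sdiff_subset_sdiff_left (subset_sUnion_of_mem hQ))
    (h Q hQ i U hU hxQ)

theorem exists_step {E P R : Set α} (hE : ∀ i, (M i).E = E)
    (hrep : ∀ i, #{j // M j = M i} = #Θ) (hP : Robust M P) (hPR : P ⊆ R) (hRE : R ⊆ E)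
    (hR : ¬ Robust M R) : ∃ D f, Step M P R D f := by
  classical
  simp only [Robust, not_forall] at hR
  obtain ⟨i, U, hU, hsub⟩ := hR
  set K := (M i).closure (R \ U) with hK
  have hDU : R \ K ⊆ U := fun x hx => by
    by_contra h
    exact hx.2 ((M i).subset_closure (R \ U)
      (sdiff_subset.trans ((hE i).symm ▸ hRE)) ⟨hx.1, h⟩)
  have hcard : #(R \ K : Set α) ≤ #{j // M j = M i} := by
    rw [hrep i]
    exact (mk_le_mk_of_subset hDU).trans hU
  obtain ⟨g⟩ := Cardinal.le_def _ _ |>.1 hcard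
  let f : α → Θ := fun x => if h : x ∈ R \ K then (g ⟨x, h⟩).1 else i
  refine ⟨R \ K, f, sdiff_subset, ?_, ?_, ?_, ?_⟩
  · obtain ⟨x, hx, hxK⟩ := not_subset.1 hsub
    exact ⟨x, hx, hxK⟩
  · rw [disjoint_left]
    exact fun x hx hxP =>
      hx.2 ((M i).closure_subset_closure (sdiff_subset_sdiff_left hPR) (hP i U hU hxP))
  · intro x hx y hy h
    simp only [f, dif_pos hx, dif_pos hy] at h
    simpa using g.injective (Subtype.ext h)
  · intro d hd
    simp only [f, dif_pos hd, (g ⟨d, hd⟩).2]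
    intro h
    refine hd.2 ?_
    refine (M i).closure_subset_closure_of_subset_closure ?_ h
    intro x hx
    by_contra h'
    exact hx.2 ⟨hx.1, h'⟩

/-- Outside the largest robust set the family can be covered over it. -/
theorem exists_cover [Nonempty Θ] {E P : Set α} (hE : ∀ i, (M i).E = E)
    (hrep : ∀ i, #{j // M j = M i} = #Θ) (hPE : P ⊆ E) (hP : Robust M P)
    (hmax : ∀ Q ⊆ E, Robust M Q → Q ⊆ P) :
    ∃ I : Θ → Set α, (∀ i, I i ⊆ E \ P) ∧ (∀ i, ((M i).contract P).Indep (I i)) ∧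
      (⋃ i, I i) = E \ P := by
  classical
  let df : Set α → Set α × (α → Θ) := fun R =>
    if h : ∃ D f, Step M P R D f then (h.choose, h.choose_spec.choose)
    else (∅, fun _ => Classical.arbitrary Θ)
  have hdf : ∀ R, P ⊆ R → R ⊆ E → R ≠ P → Step M P R (df R).1 (df R).2 := by
    intro R h1 h2 h3
    have h := exists_step hE hrep hP h1 h2 fun hR => h3 (subset_antisymm (hmax R h2 hR) h1)
    simp only [df, dif_pos h]
    exact h.choose_spec.choose_spec
  let stage : Ordinal.{0} → Set α := WellFoundedLT.fix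
    (fun a ih => {x | x ∈ E ∧ ∀ b, ∀ hb : b < a, x ∉ (df (ih b hb)).1})
  have hstage : ∀ a, stage a = {x | x ∈ E ∧ ∀ b < a, x ∉ (df (stage b)).1} :=
    fun a => WellFoundedLT.fix_eq _ a
  have hsubE : ∀ a, stage a ⊆ E := fun a x hx => by rw [hstage] at hx; exact hx.1
  have hDsub : ∀ a, (df (stage a)).1 ⊆ stage a ∧ Disjoint (df (stage a)).1 P := by
    intro a
    by_cases h : ∃ D f, Step M P (stage a) D f
    · simp only [df, dif_pos h]
      exact ⟨h.choose_spec.choose_spec.1, h.choose_spec.choose_spec.2.2.1⟩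
    · simp [df, dif_neg h]
  have hPsub : ∀ a, P ⊆ stage a := fun a x hx => by
    rw [hstage]
    exact ⟨hPE hx, fun b _ hxb => disjoint_left.1 (hDsub b).2 hxb hx⟩
  have hmem : ∀ a b, b < a → ∀ x, x ∈ (df (stage b)).1 → x ∉ stage a := fun a b hb x hx h => by
    rw [hstage] at h
    exact h.2 b hb hx
  have huniq : ∀ a b x, x ∈ (df (stage a)).1 → x ∈ (df (stage b)).1 → a = b := by
    intro a b x ha hb
    rcases lt_trichotomy a b with h | h | h
    · exact absurd ((hDsub b).1 hb) (hmem b a h x ha)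
    · exact h
    · exact absurd ((hDsub a).1 ha) (hmem a b h x hb)
  obtain ⟨a, ha⟩ : ∃ a, stage a = P := by
    by_contra hne
    push Not at hne
    choose g hg using fun a => (hdf _ (hPsub a) (hsubE a) (hne a)).2.1
    exact not_injective_of_ordinal g fun a b h => huniq a b (g a) (hg a) (h ▸ hg b)
  let I : Θ → Set α := fun c =>
    {x | ∃ b, b < a ∧ stage b ≠ P ∧ x ∈ (df (stage b)).1 ∧ (df (stage b)).2 x = c}
  have hIC : ∀ c, I c ⊆ E \ P := by
    rintro c x ⟨b, -, -, hx, -⟩
    exact ⟨hsubE b ((hDsub b).1 hx), fun h => disjoint_left.1 (hDsub b).2 hx h⟩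
  refine ⟨I, hIC, fun c => ?_, subset_antisymm (iUnion_subset hIC) fun x hx => ?_⟩
  · obtain ⟨B, hB⟩ := (M c).exists_isBasis P ((hE c).symm ▸ hPE)
    rw [hB.contract_indep_iff]
    have hdisj : Disjoint P (I c) := disjoint_left.2 fun x hxP hxI => (hIC c hxI).2 hxP
    refine ⟨?_, hdisj⟩
    rw [Matroid.indep_iff_forall_subset_not_isCircuit
      (union_subset ((hE c).symm ▸ (hIC c).trans sdiff_subset) hB.indep.subset_ground)]
    intro C hCI hC
    have hne : {b | ∃ x ∈ C, x ∈ I c ∧ x ∈ (df (stage b)).1}.Nonempty := by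
      by_contra h
      refine hC.not_indep (hB.indep.subset fun x hx => ?_)
      rcases hCI hx with h' | h'
      · obtain ⟨b, -, -, hb, -⟩ := id h'
        exact absurd ⟨b, x, hx, h', hb⟩ h
      · exact h'
    obtain ⟨b, ⟨d, hdC, hdI, hd⟩, hmin⟩ := WellFounded.has_min
      (wellFounded_lt (α := Ordinal.{0})) _ hne
    obtain ⟨b', -, hb'ne, hd', hdc⟩ := id hdI
    obtain rfl := huniq b b' d hd hd'
    obtain ⟨-, -, -, hinj, hcl⟩ := hdf _ (hPsub b) (hsubE b) hb'ne
    have hcl' := hcl d hd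
    rw [hdc] at hcl'
    refine hcl' ((M c).closure_subset_closure ?_ (hC.mem_closure_sdiff_singleton_of_mem hdC))
    rintro y ⟨hyC, hyd⟩
    rcases hCI hyC with hy | hy
    · obtain ⟨by', -, -, hyD, hyc⟩ := id hy
      have hle : b ≤ by' := not_lt.1 fun hlt => hmin by' ⟨y, hyC, hy, hyD⟩ hlt
      refine ⟨?_, fun hy' => hyd (hinj hy' hd ?_)⟩
      · have := (hDsub by').1 hyD
        rw [hstage] at this ⊢
        exact ⟨this.1, fun z hz => this.2 z (hz.trans_le hle)⟩
      · obtain rfl := huniq b by' y hy' hyD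
        rw [hyc, hdc]
    · exact ⟨hPsub b (hB.subset hy), fun h => disjoint_left.1 (hDsub b).2 h (hB.subset hy)⟩
  · have : x ∉ stage a := ha.symm ▸ hx.2
    rw [hstage] at this
    simp only [mem_ofPred_eq, hx.1, true_and, not_forall, not_not] at this
    obtain ⟨b, hb, hxb⟩ := this
    refine mem_iUnion.2 ⟨(df (stage b)).2 x, b, hb, fun h => ?_, hxb, rfl⟩
    exact hx.2 (h ▸ (hDsub b).1 hxb)

end Vale.Agent.P068.Repeated
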